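/-
S0170 team project, work package A2 (seat helper19): a computable rational approximation of the
smooth step `stp = Real.smoothTransition` at rational points.

The computability of rational arithmetic (work package A4) enters only through the hypotheses of
`stp_approx_of`, which are verbatim the statements `Spec.rat_*` of the project specification.
-/
import Crest.Agent.Helper21.BoxFlow.Defs

set_option autoImplicit false
open Crest.Agent.Helper21

namespace Crest.Agent.Helper19

/-! ### Analysis: closed form of the step and a tail bound for the exponential series -/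

theorem stp_of_nonpos {x : ℝ} (h : x ≤ 0) : stp x = 0 :=
  Real.smoothTransition.zero_of_nonpos h

theorem stp_of_one_le {x : ℝ} (h : 1 ≤ x) : stp x = 1 :=
  Real.smoothTransition.one_of_one_le h

/-- On `(0, 1)` the smooth step is the logistic function of `1/x - 1/(1-x)`. -/
theorem stp_eq_inv_one_add_exp {x : ℝ} (h0 : 0 < x) (h1 : x < 1) :
    stp x = 1 / (1 + Real.exp (1 / x - 1 / (1 - x))) := by
  have hx1 : 0 < 1 - x := by linarith
  unfold stp Real.smoothTransition
  simp only [expNegInvGlue, not_le.mpr h0, not_le.mpr hx1, if_false]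
  have hexp : Real.exp (1 / x - 1 / (1 - x)) = Real.exp (-(1 - x)⁻¹) / Real.exp (-x⁻¹) := by
    rw [← Real.exp_sub]
    congr 1
    ring
  rw [hexp]
  have ha := Real.exp_pos (-x⁻¹)
  have hb := Real.exp_pos (-(1 - x)⁻¹)
  field_simp

/-- Poisson–Markov tail bound: `exp v - ∑_{k ≤ N} v^k/k! ≤ v/(N+1) * exp v` for `v ≥ 0`. -/
theorem exp_sub_sum_le {v : ℝ} (hv : 0 ≤ v) (N : ℕ) :
    Real.exp v - ∑ k ∈ Finset.range (N + 1), v ^ k / (k.factorial : ℝ) ≤
      v / ((N : ℝ) + 1) * Real.exp v := by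
  have hs : HasSum (fun k : ℕ => v ^ k / (k.factorial : ℝ)) (Real.exp v) := by
    rw [Real.exp_eq_exp_ℝ]
    exact NormedSpace.expSeries_div_hasSum_exp v
  have h1 := (hasSum_nat_add_iff' (N + 1)).mpr hs
  have h2 := ((hasSum_nat_add_iff' N).mpr hs).mul_left (v / ((N : ℝ) + 1))
  have h3 : ∀ k : ℕ, v ^ (k + (N + 1)) / ((k + (N + 1)).factorial : ℝ) ≤
      v / ((N : ℝ) + 1) * (v ^ (k + N) / ((k + N).factorial : ℝ)) := by
    intro k
    have hfac : ((k + (N + 1)).factorial : ℝ) = ((k : ℝ) + N + 1) * ((k + N).factorial : ℝ) := by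
      rw [← add_assoc, Nat.factorial_succ]
      push_cast
      ring
    have hpow : v ^ (k + (N + 1)) = v * v ^ (k + N) := by
      rw [← add_assoc, pow_succ]
      ring
    have hfpos : (0 : ℝ) < ((k + N).factorial : ℝ) := by exact_mod_cast Nat.factorial_pos _
    have hk : (0 : ℝ) ≤ k := Nat.cast_nonneg k
    have hN : (0 : ℝ) ≤ N := Nat.cast_nonneg N
    rw [hfac, hpow, div_mul_div_comm]
    apply div_le_div_of_nonneg_left
    · exact mul_nonneg hv (pow_nonneg hv _)
    · positivity
    · apply mul_le_mul_of_nonneg_right _ hfpos.le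
      linarith
  have h4 := hasSum_le h3 h1 h2
  have h5 : 0 ≤ ∑ k ∈ Finset.range N, v ^ k / (k.factorial : ℝ) :=
    Finset.sum_nonneg fun k _ => div_nonneg (pow_nonneg hv _) (Nat.cast_nonneg _)
  have h6 : 0 ≤ v / ((N : ℝ) + 1) := div_nonneg hv (by positivity)
  calc Real.exp v - ∑ k ∈ Finset.range (N + 1), v ^ k / (k.factorial : ℝ)
      ≤ v / ((N : ℝ) + 1) * (Real.exp v - ∑ k ∈ Finset.range N, v ^ k / (k.factorial : ℝ)) := h4
    _ ≤ v / ((N : ℝ) + 1) * Real.exp v := by
        apply mul_le_mul_of_nonneg_left _ h6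
        linarith

/-- The logistic value `1/(1+exp v)` is approximated by `1/(1+S_N(v))` within `1/(n+1)` as soon as
`v * (n+1) ≤ N + 1`. -/
theorem abs_logistic_sub_le {v : ℝ} (hv : 0 ≤ v) (N n : ℕ) (hN : v * ((n : ℝ) + 1) ≤ (N : ℝ) + 1) :
    |1 / (1 + Real.exp v) - 1 / (1 + ∑ k ∈ Finset.range (N + 1), v ^ k / (k.factorial : ℝ))| ≤
      1 / ((n : ℝ) + 1) := by
  set S := ∑ k ∈ Finset.range (N + 1), v ^ k / (k.factorial : ℝ) with hS
  have hS0 : 0 ≤ S := Finset.sum_nonneg fun k _ => div_nonneg (pow_nonneg hv _) (Nat.cast_nonneg _)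
  have hSE : S ≤ Real.exp v := Real.sum_le_exp_of_nonneg hv _
  have hE : 0 < Real.exp v := Real.exp_pos v
  have htail := exp_sub_sum_le hv N
  rw [← hS] at htail
  have hn : (0 : ℝ) < (n : ℝ) + 1 := by positivity
  have hN1 : (0 : ℝ) < (N : ℝ) + 1 := by positivity
  have hvN : v / ((N : ℝ) + 1) ≤ 1 / ((n : ℝ) + 1) := by
    rw [div_le_div_iff₀ hN1 hn]
    linarith
  have hdiff : 1 / (1 + S) - 1 / (1 + Real.exp v) = (Real.exp v - S) / ((1 + S) * (1 + Real.exp v)) := by
    field_simp
    ring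
  have hnonneg : 0 ≤ 1 / (1 + S) - 1 / (1 + Real.exp v) := by
    rw [hdiff]
    apply div_nonneg (by linarith) (by positivity)
  have hle : 1 / (1 + S) - 1 / (1 + Real.exp v) ≤ v / ((N : ℝ) + 1) := by
    rw [hdiff, div_le_iff₀ (by positivity)]
    have h6 : 0 ≤ v / ((N : ℝ) + 1) := div_nonneg hv hN1.le
    calc Real.exp v - S ≤ v / ((N : ℝ) + 1) * Real.exp v := htail
      _ ≤ v / ((N : ℝ) + 1) * ((1 + S) * (1 + Real.exp v)) := by
          apply mul_le_mul_of_nonneg_left _ h6
          nlinarith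
  rw [abs_sub_comm, abs_of_nonneg hnonneg]
  linarith

/-! ### The approximating function -/

/-- Partial sum `∑_{k ≤ N} v^k / k!` of the exponential series, over `ℚ`. -/
def expSum (v : ℚ) (N : ℕ) : ℚ := ∑ k ∈ Finset.range (N + 1), v ^ k / (k.factorial : ℚ)

/-- The exponent `1/r - 1/(1-r)`. -/
def uOf (r : ℚ) : ℚ := 1 / r - 1 / (1 - r)

/-- Absolute value, written with a Boolean test. -/
def absQ (u : ℚ) : ℚ := bif decide (0 ≤ u) then u else -u

/-- The approximation of `1/(1+exp |u|)`. -/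
def sigOf (r : ℚ) (n : ℕ) : ℚ :=
  1 / (1 + expSum (absQ (uOf r)) (⌈absQ (uOf r)⌉₊ * (n + 1)))

/-- The rational approximation of `stp r` with error at most `1/(n+1)`. -/
def stpApprox (p : ℚ × ℕ) : ℚ :=
  bif decide (p.1 ≤ 0) then 0 else
  bif decide (1 ≤ p.1) then 1 else
  bif decide (0 ≤ uOf p.1) then sigOf p.1 p.2 else 1 - sigOf p.1 p.2

theorem absQ_eq (u : ℚ) : absQ u = |u| := by
  unfold absQ
  by_cases h : 0 ≤ u
  · simp [h, abs_of_nonneg h]
  · simp [h, abs_of_neg (not_le.mp h)]

theorem expSum_cast (v : ℚ) (N : ℕ) :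
    ((expSum v N : ℚ) : ℝ) = ∑ k ∈ Finset.range (N + 1), (v : ℝ) ^ k / (k.factorial : ℝ) := by
  unfold expSum
  push_cast
  rfl

theorem stpApprox_spec (r : ℚ) (n : ℕ) :
    |stp (r : ℝ) - (stpApprox (r, n) : ℝ)| ≤ 1 / ((n : ℝ) + 1) := by
  unfold stpApprox
  by_cases h0 : r ≤ 0
  · have h0' : (r : ℝ) ≤ 0 := by exact_mod_cast h0
    simp [h0, stp_of_nonpos h0']
    positivity
  by_cases h1 : 1 ≤ r
  · have h1' : (1 : ℝ) ≤ r := by exact_mod_cast h1
    simp [h0, h1, stp_of_one_le h1']
    positivity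
  have h0' : (0 : ℝ) < r := by exact_mod_cast not_le.mp h0
  have h1' : (r : ℝ) < 1 := by exact_mod_cast not_le.mp h1
  have hstp := stp_eq_inv_one_add_exp h0' h1'
  have hu : ((uOf r : ℚ) : ℝ) = 1 / (r : ℝ) - 1 / (1 - (r : ℝ)) := by
    unfold uOf
    push_cast
    rfl
  rw [← hu] at hstp
  set v : ℚ := absQ (uOf r) with hv
  have hv0 : (0 : ℝ) ≤ (v : ℝ) := by
    rw [hv, absQ_eq]
    exact_mod_cast abs_nonneg (uOf r)
  have hceil : (v : ℝ) * ((n : ℝ) + 1) ≤ ((⌈v⌉₊ * (n + 1) : ℕ) : ℝ) + 1 := by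
    have h := Nat.le_ceil v
    have h' : (v : ℝ) ≤ (⌈v⌉₊ : ℝ) := by exact_mod_cast h
    have hn1 : (0 : ℝ) ≤ (n : ℝ) + 1 := by positivity
    push_cast
    nlinarith
  have hmain := abs_logistic_sub_le hv0 (⌈v⌉₊ * (n + 1)) n hceil
  have hsig : ((sigOf r n : ℚ) : ℝ) =
      1 / (1 + ∑ k ∈ Finset.range (⌈v⌉₊ * (n + 1) + 1), (v : ℝ) ^ k / (k.factorial : ℝ)) := by
    unfold sigOf
    rw [← hv]
    push_cast
    rw [expSum_cast]
  rw [← hsig] at hmain
  by_cases hu0 : 0 ≤ uOf r
  · have hvu : v = uOf r := by rw [hv, absQ_eq, abs_of_nonneg hu0]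
    simp only [h0, h1, hu0, decide_true, decide_false, cond_true, cond_false]
    rw [hstp, ← hvu]
    exact hmain
  · have hvu : (uOf r) = -v := by rw [hv, absQ_eq, abs_of_neg (not_le.mp hu0)]; ring
    simp only [h0, h1, hu0, decide_false, cond_false]
    rw [hstp, hvu]
    have hE := Real.exp_pos (v : ℝ)
    have hneg : 1 / (1 + Real.exp (((-v : ℚ) : ℝ))) = 1 - 1 / (1 + Real.exp (v : ℝ)) := by
      push_cast
      rw [Real.exp_neg]
      field_simp
      ring
    rw [hneg]
    push_cast
    rw [show 1 - 1 / (1 + Real.exp (v : ℝ)) - (1 - (sigOf r n : ℝ)) =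
      -(1 / (1 + Real.exp (v : ℝ)) - (sigOf r n : ℝ)) by ring, abs_neg]
    exact hmain

/-! ### Computability (from the computability of rational arithmetic, work package A4) -/

/-- One step of the recursion computing the exponential partial sums; the state is
`(v^k/k!, ∑_{j ≤ k} v^j/j!)`. -/
def expStep (v : ℚ) (q : ℕ × (ℚ × ℚ)) : ℚ × ℚ :=
  (q.2.1 * v / ((q.1 + 1 : ℕ) : ℚ), q.2.2 + q.2.1 * v / ((q.1 + 1 : ℕ) : ℚ))

theorem expRec_eq (v : ℚ) (N : ℕ) :
    Nat.rec (motive := fun _ => ℚ × ℚ) ((1 : ℚ), (1 : ℚ)) (fun k IH => expStep v (k, IH)) N =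
      (v ^ N / (N.factorial : ℚ), expSum v N) := by
  induction N with
  | zero => simp [expSum]
  | succ N ih =>
    have hterm : v ^ N / (N.factorial : ℚ) * v / ((N + 1 : ℕ) : ℚ) =
        v ^ (N + 1) / ((N + 1).factorial : ℚ) := by
      have h1 : ((N + 1 : ℕ) : ℚ) ≠ 0 := by positivity
      have h2 : (N.factorial : ℚ) ≠ 0 := by positivity
      rw [Nat.factorial_succ, pow_succ]
      push_cast
      field_simp
    show expStep v (N, Nat.rec (motive := fun _ => ℚ × ℚ) ((1 : ℚ), (1 : ℚ))
      (fun k IH => expStep v (k, IH)) N) = _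
    rw [ih]
    show (v ^ N / (N.factorial : ℚ) * v / ((N + 1 : ℕ) : ℚ),
      expSum v N + v ^ N / (N.factorial : ℚ) * v / ((N + 1 : ℕ) : ℚ)) = _
    rw [hterm]
    congr 1
    unfold expSum
    rw [Finset.sum_range_succ _ (N + 1)]

theorem computable_expStep (h_add : Computable₂ (fun a b : ℚ => a + b))
    (h_mul : Computable₂ (fun a b : ℚ => a * b)) (h_div : Computable₂ (fun a b : ℚ => a / b))
    (h_natCast : Computable (fun n : ℕ => (n : ℚ))) : Computable₂ expStep := by
  have ht : Computable (fun p : ℚ × (ℕ × (ℚ × ℚ)) => p.2.2.1 * p.1 / ((p.2.1 + 1 : ℕ) : ℚ)) := by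
    refine h_div.comp (h_mul.comp ?_ Computable.fst) (h_natCast.comp (Computable.succ.comp ?_))
    · exact Computable.fst.comp (Computable.snd.comp Computable.snd)
    · exact Computable.fst.comp Computable.snd
  exact Computable.pair ht
    (h_add.comp (Computable.snd.comp (Computable.snd.comp Computable.snd)) ht)

theorem computable_expSum (h_add : Computable₂ (fun a b : ℚ => a + b))
    (h_mul : Computable₂ (fun a b : ℚ => a * b)) (h_div : Computable₂ (fun a b : ℚ => a / b))
    (h_natCast : Computable (fun n : ℕ => (n : ℚ))) : Computable₂ expSum := by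
  have hstep : Computable₂ (fun (p : ℚ × ℕ) (q : ℕ × (ℚ × ℚ)) => expStep p.1 q) :=
    (computable_expStep h_add h_mul h_div h_natCast).comp
      (Computable.fst.comp Computable.fst) Computable.snd
  have hrec : Computable (fun p : ℚ × ℕ =>
      Nat.rec (motive := fun _ => ℚ × ℚ) ((1 : ℚ), (1 : ℚ))
        (fun k IH => expStep p.1 (k, IH)) p.2) :=
    Computable.nat_rec (f := fun p : ℚ × ℕ => p.2) (g := fun _ => ((1 : ℚ), (1 : ℚ)))
      (h := fun p q => expStep p.1 q) Computable.snd (Computable.const _) hstep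
  exact (Computable.snd.comp hrec).of_eq (fun p => by rw [expRec_eq])

theorem computable_uOf (h_sub : Computable₂ (fun a b : ℚ => a - b))
    (h_div : Computable₂ (fun a b : ℚ => a / b)) : Computable uOf :=
  h_sub.comp (h_div.comp (Computable.const 1) Computable.id)
    (h_div.comp (Computable.const 1) (h_sub.comp (Computable.const 1) Computable.id))

theorem computable_absQ (h_neg : Computable (fun a : ℚ => -a))
    (h_le : Computable₂ (fun a b : ℚ => decide (a ≤ b))) : Computable absQ :=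
  Computable.cond (h_le.comp (Computable.const 0) Computable.id) Computable.id h_neg

theorem computable_sigOf (h_add : Computable₂ (fun a b : ℚ => a + b))
    (h_neg : Computable (fun a : ℚ => -a)) (h_sub : Computable₂ (fun a b : ℚ => a - b))
    (h_mul : Computable₂ (fun a b : ℚ => a * b)) (h_div : Computable₂ (fun a b : ℚ => a / b))
    (h_natCast : Computable (fun n : ℕ => (n : ℚ)))
    (h_le : Computable₂ (fun a b : ℚ => decide (a ≤ b)))
    (h_natCeil : Computable (fun a : ℚ => ⌈a⌉₊)) : Computable₂ sigOf := by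
  have hv : Computable (fun p : ℚ × ℕ => absQ (uOf p.1)) :=
    (computable_absQ h_neg h_le).comp ((computable_uOf h_sub h_div).comp Computable.fst)
  have hN : Computable (fun p : ℚ × ℕ => ⌈absQ (uOf p.1)⌉₊ * (p.2 + 1)) :=
    (Primrec.nat_mul.to_comp).comp (h_natCeil.comp hv) (Computable.succ.comp Computable.snd)
  exact h_div.comp (Computable.const 1)
    (h_add.comp (Computable.const 1)
      ((computable_expSum h_add h_mul h_div h_natCast).comp hv hN))

theorem computable_stpApprox (h_add : Computable₂ (fun a b : ℚ => a + b))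
    (h_neg : Computable (fun a : ℚ => -a)) (h_sub : Computable₂ (fun a b : ℚ => a - b))
    (h_mul : Computable₂ (fun a b : ℚ => a * b)) (h_div : Computable₂ (fun a b : ℚ => a / b))
    (h_natCast : Computable (fun n : ℕ => (n : ℚ)))
    (h_le : Computable₂ (fun a b : ℚ => decide (a ≤ b)))
    (h_natCeil : Computable (fun a : ℚ => ⌈a⌉₊)) : Computable stpApprox := by
  have hsig : Computable (fun p : ℚ × ℕ => sigOf p.1 p.2) :=
    computable_sigOf h_add h_neg h_sub h_mul h_div h_natCast h_le h_natCeil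
  exact Computable.cond (h_le.comp Computable.fst (Computable.const 0)) (Computable.const 0)
    (Computable.cond (h_le.comp (Computable.const 1) Computable.fst) (Computable.const 1)
      (Computable.cond
        (h_le.comp (Computable.const 0) ((computable_uOf h_sub h_div).comp Computable.fst))
        hsig (h_sub.comp (Computable.const 1) hsig)))

/-- **Work package A2**, relative to the computability of rational arithmetic (the hypotheses are
the statements `Spec.rat_*` of work package A4, verbatim; `h_inv` is not used). -/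
theorem stp_approx_of (h_add : Computable₂ (fun a b : ℚ => a + b))
    (h_neg : Computable (fun a : ℚ => -a)) (h_sub : Computable₂ (fun a b : ℚ => a - b))
    (h_mul : Computable₂ (fun a b : ℚ => a * b)) (_h_inv : Computable (fun a : ℚ => a⁻¹))
    (h_div : Computable₂ (fun a b : ℚ => a / b))
    (h_natCast : Computable (fun n : ℕ => (n : ℚ)))
    (h_le : Computable₂ (fun a b : ℚ => decide (a ≤ b)))
    (h_natCeil : Computable (fun a : ℚ => ⌈a⌉₊)) :
    ∃ A : ℚ × ℕ → ℚ, Computable A ∧
      ∀ (r : ℚ) (n : ℕ), |stp (r : ℝ) - (A (r, n) : ℝ)| ≤ 1 / ((n : ℝ) + 1) :=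
  ⟨stpApprox, computable_stpApprox h_add h_neg h_sub h_mul h_div h_natCast h_le h_natCeil,
    stpApprox_spec⟩

end Crest.Agent.Helper19
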