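/-
S0170 team project, work package A2 (seat helper19), closed form: `stp_approx` with the exact
statement of the project specification, using the computable rational arithmetic of work package
A4 (`Crest.Agent.Helper82.RatComp`).
-/
import Crest.Agent.Helper19.BoxFlow.A2
import Crest.Agent.Helper82.RatComp

set_option autoImplicit false
open Crest.Agent.Helper21

namespace Crest.Agent.Helper19

/-- **Work package A2.** A computable rational approximation of the smooth step at rational
points. -/
theorem stp_approx : ∃ A : ℚ × ℕ → ℚ, Computable A ∧
    ∀ (r : ℚ) (n : ℕ), |stp (r : ℝ) - (A (r, n) : ℝ)| ≤ 1 / ((n : ℝ) + 1) :=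
  stp_approx_of Crest.Agent.Helper82.rat_add Crest.Agent.Helper82.rat_neg
    Crest.Agent.Helper82.rat_sub Crest.Agent.Helper82.rat_mul Crest.Agent.Helper82.rat_inv
    Crest.Agent.Helper82.rat_div Crest.Agent.Helper82.rat_natCast Crest.Agent.Helper82.rat_le
    Crest.Agent.Helper82.rat_natCeil

/-- The explicit approximant is computable. -/
theorem computable_stpApprox' : Computable stpApprox :=
  computable_stpApprox Crest.Agent.Helper82.rat_add Crest.Agent.Helper82.rat_neg
    Crest.Agent.Helper82.rat_sub Crest.Agent.Helper82.rat_mul Crest.Agent.Helper82.rat_div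
    Crest.Agent.Helper82.rat_natCast Crest.Agent.Helper82.rat_le Crest.Agent.Helper82.rat_natCeil

end Crest.Agent.Helper19
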